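import Vale.Agent.P255L9.Main

open scoped Manifold ContDiff

namespace Vale.Agent.Results.P255.AAnyGeodesic

open Vale.Agent.P255L

/-- In every dimension `n ≥ 3` there is a closed connected smooth manifold which admits a metric
without conjugate points (on geodesics defined on any interval) and no metric of nonpositive
sectional curvature. On closed manifolds the notions used are well posed. -/
theorem result : (∀ n : ℕ, 3 ≤ n →
    ∃ (E : Type) (_ : NormedAddCommGroup E) (_ : NormedSpace ℝ E) (_ : FiniteDimensional ℝ E)
      (M : Type) (_ : TopologicalSpace M) (_ : ChartedSpace E M) (_ : IsManifold 𝓘(ℝ, E) ∞ M),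
      Module.finrank ℝ E = n ∧
      CompactSpace M ∧ T2Space M ∧ SecondCountableTopology M ∧ ConnectedSpace M ∧
      AdmitsNoConj E M ∧ ¬ AdmitsNonpos E M) ∧
    ∀ (E : Type) [NormedAddCommGroup E] [NormedSpace ℝ E] [FiniteDimensional ℝ E]
      (M : Type) [TopologicalSpace M] [ChartedSpace E M] [IsManifold 𝓘(ℝ, E) ∞ M]
      [CompactSpace M] [T2Space M], WellPosed E M :=
  main

end Vale.Agent.Results.P255.AAnyGeodesic
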